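import Crest.Agent.X212.Ix82.Dir
import Crest.Agent.X212.Pj41.Cm
import Crest.Agent.X212.Cht98.Cov
import Crest.Agent.X212.Glue52.Two

/-!
# Row 212, lane IND-S (helper27): graded modules are local; two charts define a module

* `Rel` : literal correspondence along a local diffeomorphism; `loc_of` : `DM.Loc` is local;
* `exists_mf` : gluing along height functions; `exists_geo` : the module of the glued manifold.
-/

set_option autoImplicit false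
set_option linter.unusedSectionVars false
noncomputable section
open scoped Manifold ContDiff Topology InnerProductSpace
open Set Function Filter TopologicalSpace

namespace Crest.Agent.X212.Glu27
open An Ix82 Pj41 Met55 Glue52
open M (Mf pm)

variable {κ U : Type} [Fintype κ] [NormedAddCommGroup U] [InnerProductSpace ℝ U] [FiniteDimensional ℝ U]
  {M M' M'' M₁ M₂ : DM κ U}

/-- literal correspondence along a local diffeomorphism -/
structure Rel (M M' : DM κ U) (ψ : M.X.M → M'.X.M) (O : Set M.X.M) : Prop where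
  fr : FRel M.F M'.F ψ O
  d : ∀ x ∈ O, M'.d (ψ x) = M.d x

variable {φ : OpenPartialHomeomorph M.X.M M'.X.M} {ψ χ : M.X.M → M'.X.M} {O O₁ : Set M.X.M}

theorem lit_rel (h : M.Lit M' φ) : Rel M M' φ φ.source := ⟨fRel_of_iso h.iso, h.d⟩

theorem lit_symm (h : M.Lit M' φ) : M'.Lit M φ.symm :=
  ⟨Sob92.iso_symm h.iso, fun x k => (h.d _ (φ.map_target k)).symm.trans (congrArg _ (φ.right_inv k))⟩

theorem Rel.mono (h : Rel M M' ψ O) (o : IsOpen O₁) (s : O₁ ⊆ O) : Rel M M' ψ O₁ :=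
  ⟨h.fr.mono o s, fun x k => h.d x (s k)⟩

theorem Rel.congr (h : Rel M M' ψ O) (e : EqOn χ ψ O) : Rel M M' χ O :=
  ⟨h.fr.congr e, fun x k => (congrArg _ (e k)).trans (h.d x k)⟩

theorem Rel.trans (h : Rel M M' ψ O) {χ : M'.X.M → M''.X.M} {O' : Set M'.X.M} (k : Rel M' M'' χ O')
    (m : MapsTo ψ O O') : Rel M M'' (χ ∘ ψ) O :=
  ⟨h.fr.trans k.fr m, fun x a => (k.d _ (m a)).trans (h.d x a)⟩

theorem Rel.lit (h : Rel M M' φ φ.source) (v : M.F.IsVol) (v' : M'.F.IsVol) : M.Lit M' φ := ⟨h.fr.iso v v', h.d⟩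

theorem rel_of_loc (o : IsOpen O) (h : ∀ x ∈ O, ∃ O', x ∈ O' ∧ Rel M M' ψ O') : Rel M M' ψ O :=
  ⟨⟨o, fun x k => let ⟨_, a, b⟩ := h x k; b.fr.ld x a, fun a x k => let ⟨_, c, b⟩ := h x k; b.fr.e a x c⟩,
    fun x k => let ⟨_, a, b⟩ := h x k; b.d x a⟩

theorem rel_tau (e : DE κ U) (c : ℝ) : Rel e.cyl e.cyl (fun x => (x.1, x.2 + c)) univ :=
  ⟨fRel_of_iso (F := e.cyl.F) (F' := e.cyl.F) (Cht98.iso_tau e.F.toPre c), fun _ _ => rfl⟩

section
variable {V : Type} [NormedAddCommGroup V] [NormedSpace ℝ V] (h : Rel M M' ψ O) {x : M.X.M} (hx : x ∈ O)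
  (g : DF κ U → V)
include h hx

theorem Rel.ev : ∀ᶠ y in 𝓝 x, g (M.d y) = g (M'.d (ψ y)) :=
  (h.fr.op.eventually_mem hx).mono fun y k => by rw [h.d y k]

theorem Rel.sa (k : ContMDiffAt M'.X.I 𝓘(ℝ, V) ∞ (fun y => g (M'.d y)) (ψ x)) :
    ContMDiffAt M.X.I 𝓘(ℝ, V) ∞ (fun y => g (M.d y)) x := (h.fr.sm hx k).congr_of_eventuallyEq (h.ev hx g)

theorem Rel.dv (a : Option κ) : Sob92.dv M.X.I (M.F.e a) (fun y => g (M.d y)) x =
    Sob92.dv M'.X.I (M'.F.e a) (fun y => g (M'.d y)) (ψ x) := h.fr.D hx a (h.ev hx g)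

end

/-- the conditions are local -/
theorem loc_of (v : M.F.IsVol) (h : ∀ x, ∃ (M' : DM κ U) (ψ : _) (O : _), M'.Loc ∧ x ∈ O ∧ Rel M M' ψ O) : M.Loc := by
  choose N ψ O L m R using h
  have d : ∀ x, M.d x = (N x).d (ψ x x) := fun x => ((R x).d x (m x)).symm
  have P : ∀ x a b, M.F.P a b x = (N x).F.P a b (ψ x x) := fun x => (R x).fr.P (m x)
  refine ⟨⟨M.X.dim, v, fun a b c e x => (R x).sa (m x) (·.o a b c e) ((L x).ok.sm a b c e _), fun x => ?_⟩,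
    ⟨M.X.dim, v, Wz78.riem_of_vol v, Wz78.lc_gam _, ⟨⟨fun a x => (R x).sa (m x) (·.A a) ((L x).dm.cc.sm a _),
      fun a x => ?_⟩, fun x => (R x).sa (m x) (fun f => f.p₀ + f.p₁) ((L x).dm.cc.sp _),
      fun a x => (R x).sa (m x) (·.ρ a) ((L x).dm.cc.sρ a _), fun x => ?_, fun a x => ?_, fun a b x => ?_⟩,
      fun a x => ?_, fun a x => ?_⟩, ⟨fun x => (R x).sa (m x) (·.p₀) ((L x).gr.s0 _), fun x => ?_, fun x => ?_,
      fun x => ?_, fun x => ?_, fun _ => rfl, fun x => ?_, fun a x => ?_, fun a x => ?_⟩,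
    fun x => (R x).sa (m x) (·.B) ((L x).sB _), fun x => ?_⟩
  · simpa only [DM.o, d x, P x] using (L x).ok.vo (ψ x x)
  · simpa only [DM.A, d x, P x] using (L x).dm.cc.proj a (ψ x x)
  · simpa only [DM.p, DM.p₀, DM.p₁, DM.ρ, d x, P x] using (L x).dm.cc.cl (ψ x x)
  · have := (L x).dm.cc.par a (ψ x x)
    rw [← (R x).dv (m x) (fun f => f.p₀ + f.p₁) a] at this
    simpa only [DM.p, DM.p₀, DM.p₁, DM.A, d x] using this
  · have := (L x).dm.cc.comp a b (ψ x x)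
    rw [← (R x).dv (m x) (·.ρ b) a] at this
    simpa only [DM.ρ, DM.A, d x, (R x).fr.Gam (m x)] using this
  · simpa only [DM.A, d x] using (L x).dm.skA a (ψ x x)
  · simpa only [DM.ρ, d x] using (L x).dm.skρ a (ψ x x)
  · simpa only [DM.p₀, d x] using (L x).gr.sym0 (ψ x x)
  · simpa only [DM.p₁, d x] using (L x).gr.sym1 (ψ x x)
  · simpa only [DM.p₀, d x] using (L x).gr.id0 (ψ x x)
  · simpa only [DM.p₁, d x] using (L x).gr.id1 (ψ x x)
  · simpa only [DM.p₀, DM.p₁, d x] using (L x).gr.o01 (ψ x x)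
  · simpa only [DM.p₀, DM.p₁, DM.ρ, d x] using (L x).gr.sw a (ψ x x)
  · have := (L x).gr.par0 a (ψ x x)
    rw [Wz78.nabE, ← (R x).dv (m x) (·.p₀) a] at this
    simpa only [Wz78.nabE, DM.p₀, DM.A, d x] using this
  · simpa only [DM.p₁, DM.B, d x] using (L x).pB (ψ x x)

theorem pd_sub {X Z : Mf 4} (W : Opens X.M) [Nonempty W] {f : W → Z.M} (hf : IsLocalDiffeomorph X.I Z.I ∞ f)
    (hi : Injective f) : ∃ l : PartialDiffeomorph X.I Z.I X.M Z.M ∞, l.source = W ∧ l.target = range f ∧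
      ∀ u : W, l u = f u := by
  let v := pdOfInj (ld_val (I := X.I) W) Subtype.val_injective
  refine ⟨v.symm.trans (pdOfInj hf hi), ?_, ?_, fun u => congrArg f (v.left_inv (x := u) trivial)⟩
  · exact (inter_univ _).trans ((pdOfInj_target (ld_val (I := X.I) W) Subtype.val_injective).trans Subtype.range_coe)
  · exact (inter_univ _).trans (pdOfInj_target hf hi)

/-- gluing along two height functions -/
theorem exists_mf {X₁ X₂ : Mf 4} {h₁ : X₁.M → ℝ} {h₂ : X₂.M → ℝ} (c₁ : Continuous h₁) (c₂ : Continuous h₂)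
    {θ : X₁.M → X₂.M} (ld : ∀ x, h₁ x ∈ Ioo (0 : ℝ) 4 → IsLocalDiffeomorphAt X₁.I X₂.I ∞ θ x)
    (bij : BijOn θ (h₁ ⁻¹' Ioo 0 4) (h₂ ⁻¹' Ioo 0 4)) (ht : ∀ x, h₁ x ∈ Ioo (0 : ℝ) 4 → h₂ (θ x) = 4 - h₁ x)
    (ne : (h₁ ⁻¹' Ioo 0 4).Nonempty) :
    ∃ (X : Mf 4) (l : PartialDiffeomorph X₁.I X.I X₁.M X.M ∞) (r : PartialDiffeomorph X₂.I X.I X₂.M X.M ∞),
      l.source = {x | h₁ x < 4} ∧ r.source = {x | h₂ x < 4} ∧ l.target ∪ r.target = univ ∧
        ∀ p q, h₁ p < 4 → h₂ q < 4 → (l p = r q ↔ h₁ p ∈ Ioo (0 : ℝ) 4 ∧ θ p = q) := by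
  let U₁ : Opens X₁.M := ⟨{x | h₁ x < 4}, isOpen_lt c₁ continuous_const⟩
  let U₂ : Opens X₂.M := ⟨{x | h₂ x < 4}, isOpen_lt c₂ continuous_const⟩
  let N : Opens X₁.M := ⟨h₁ ⁻¹' Ioo 0 4, isOpen_Ioo.preimage c₁⟩
  have s : N ≤ U₁ := fun _ k => k.2
  let T : Two (EuclideanSpace ℝ (Fin 4)) X₁.I X₂.I X₁.I U₁ U₂ N := ⟨linE 4 _ X₁.dim, linE 4 _ X₂.dim,
    Opens.inclusion s, fun n => ⟨θ n, (bij.mapsTo n.2).2⟩, ld_inclusion s,
    fun n => ld_codRestrict (ld_restrict (ld n n.2)), inclusion_injective s,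
    fun n m e => Subtype.ext (bij.injOn n.2 m.2 (congrArg Subtype.val e))⟩
  have : T2Space T.M := T.t2Space (A := {n | 2 ≤ h₁ n}) (B := {n | h₁ n ≤ 2})
    (eq_univ_of_forall fun n => le_total 2 (h₁ n)) (by
      convert isClosed_le continuous_const (c₁.comp (continuous_subtype_val (p := (· ∈ U₁)))) (f := fun _ => 2)
      exact Subset.antisymm (by rintro _ ⟨n, k, rfl⟩; exact k) fun u k => ⟨⟨u, two_pos.trans_le k, u.2⟩, k, rfl⟩) (by
      convert isClosed_le continuous_const (c₂.comp (continuous_subtype_val (p := (· ∈ U₂)))) (f := fun _ => 2)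
      refine Subset.antisymm ?_ fun u k => ?_
      · rintro _ ⟨n, k, rfl⟩
        exact (by linarith [mem_ofPred_eq ▸ k] : 2 ≤ 4 - h₁ n).trans_eq (ht n n.2).symm
      · obtain ⟨n, a, b⟩ := bij.surjOn (⟨two_pos.trans_le k, u.2⟩ : u.1 ∈ h₂ ⁻¹' Ioo 0 4)
        have : 2 ≤ 4 - h₁ n := (ht n a) ▸ b ▸ k
        exact ⟨⟨n, a⟩, show h₁ n ≤ 2 by linarith, Subtype.ext b⟩)
  obtain ⟨n, hn⟩ := ne
  have : Nonempty U₁ := ⟨⟨n, hn.2⟩⟩
  have : Nonempty U₂ := ⟨T.j₂ ⟨n, hn⟩⟩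
  let X : Mf 4 := Mf.ofB 4 𝓘(ℝ, EuclideanSpace ℝ (Fin 4)) T.M (by simp)
  obtain ⟨l, l1, l2, l3⟩ := pd_sub (Z := X) U₁ T.ld_inl T.inl_injective
  obtain ⟨r, r1, r2, r3⟩ := pd_sub (Z := X) U₂ T.ld_inr T.inr_injective
  refine ⟨X, l, r, l1, r1, by rw [l2, r2]; exact T.range_union, fun p q a b => ?_⟩
  rw [l3 ⟨p, a⟩, r3 ⟨q, b⟩]
  refine T.inl_eq_inr.trans ⟨?_, fun k => ⟨⟨p, k.1⟩, rfl, Subtype.ext k.2⟩⟩
  rintro ⟨m, e, e'⟩
  obtain rfl : m.1 = p := congrArg Subtype.val e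
  exact ⟨m.2, congrArg Subtype.val e'⟩

/-- the module of a manifold with two charts -/
theorem exists_geo (L₁ : M₁.Loc) (L₂ : M₂.Loc) {X : Mf 4} (l : PartialDiffeomorph M₁.X.I X.I M₁.X.M X.M ∞)
    (r : PartialDiffeomorph M₂.X.I X.I M₂.X.M X.M ∞) (cov : l.target ∪ r.target = univ) {θ N} (R : Rel M₁ M₂ θ N)
    (h : ∀ p ∈ l.source, ∀ q ∈ r.source, l p = r q → p ∈ N ∧ θ p = q) :
    ∃ F d, DM.Loc ⟨X, F, d⟩ ∧ M₁.Lit ⟨X, F, d⟩ l.toOpenPartialHomeomorph ∧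
      M₂.Lit ⟨X, F, d⟩ r.toOpenPartialHomeomorph := by
  classical
  have a₁ := fun z (k : z ∈ l.target) => l.symm.isLocalDiffeomorphAt _ _ _ k
  have a₂ := fun z (k : z ∈ r.target) => r.symm.isLocalDiffeomorphAt _ _ _ k
  have h' := fun z (k : z ∈ l.target) (k' : z ∈ r.target) =>
    h _ (l.map_target k) _ (r.map_target k') ((l.right_inv k).trans (r.right_inv k').symm)
  let e : Option κ → Met55.VF X.I X.M := fun a z =>
    if z ∈ r.target then pbv X.I M₂.X.I r.symm (M₂.F.e a) z else pbv X.I M₁.X.I l.symm (M₁.F.e a) z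
  let d : X.M → DF κ U := fun z => if z ∈ r.target then M₂.d (r.symm z) else M₁.d (l.symm z)
  have e₂ : ∀ z ∈ r.target, ∀ a, e a z = pbv X.I M₂.X.I r.symm (M₂.F.e a) z := fun z k a => if_pos k
  have e₁ : ∀ z ∈ l.target, ∀ a, e a z = pbv X.I M₁.X.I l.symm (M₁.F.e a) z := fun z k a => by
    by_cases k' : z ∈ r.target
    · refine (e₂ z k' a).trans ((ld_bij (a₂ z k')).1 ((pbv_rel (a₂ z k') _).trans ?_))
      have ev : r.symm =ᶠ[𝓝 z] θ ∘ l.symm :=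
        ((l.open_target.inter r.open_target).eventually_mem ⟨k, k'⟩).mono fun y c => (h' y c.1 c.2).2.symm
      have key : ∀ y, y = θ (l.symm z) → (M₂.F.e a y : M₂.X.E) =
          mfderiv X.I M₂.X.I (θ ∘ l.symm) z (pbv X.I M₁.X.I l.symm (M₁.F.e a) z) := by
        rintro _ rfl
        rw [mfderiv_comp (f := l.symm) z ((R.fr.ld _ (h' z k k').1).contMDiffAt.mdifferentiableAt (by simp))
          ((a₁ z k).contMDiffAt.mdifferentiableAt (by simp))]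
        exact ((congrArg _ (pbv_rel (a₁ z k) _)).trans (R.fr.e a _ (h' z k k').1)).symm
      rw [ev.mfderiv_eq]
      exact key _ (h' z k k').2.symm
    · exact if_neg k'
  have he : ∀ z, FAt e z := fun z => (cov.ge (mem_univ z)).elim
    (fun k => (FAt.pbv (a₁ z k) (pre_fAt M₁.F.toPre _)).congr ((l.open_target.eventually_mem k).mono e₁))
    fun k => (FAt.pbv (a₂ z k) (pre_fAt M₂.F.toPre _)).congr ((r.open_target.eventually_mem k).mono e₂)
  have R₁ : Rel ⟨X, rFr e he, d⟩ M₁ l.symm l.target := ⟨⟨l.open_target, a₁, fun a z k =>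
    (congrArg _ (e₁ z k a)).trans (pbv_rel (a₁ z k) _)⟩, fun z k => by
      by_cases k' : z ∈ r.target
      exacts [(R.d _ (h' z k k').1).symm.trans ((congrArg _ (h' z k k').2).trans (if_pos k').symm), (if_neg k').symm]⟩
  have R₂ : Rel ⟨X, rFr e he, d⟩ M₂ r.symm r.target := ⟨⟨r.open_target, a₂, fun a z k =>
    (congrArg _ (e₂ z k a)).trans (pbv_rel (a₂ z k) _)⟩, fun z k => (if_pos k).symm⟩
  exact ⟨rFr e he, d, loc_of (rFr_vol e he) fun z => (cov.ge (mem_univ z)).elim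
    (fun k => ⟨_, _, _, L₁, k, R₁⟩) fun k => ⟨_, _, _, L₂, k, R₂⟩,
    (lit_symm (Rel.lit (M := ⟨X, rFr e he, d⟩) (φ := l.toOpenPartialHomeomorph.symm) R₁ (rFr_vol e he) L₁.ok.isv) :),
    (lit_symm (Rel.lit (M := ⟨X, rFr e he, d⟩) (φ := r.toOpenPartialHomeomorph.symm) R₂ (rFr_vol e he) L₂.ok.isv) :)⟩

end Crest.Agent.X212.Glu27
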