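import Crest.Agent.X212.Glu27.Loc

/-!
# Row 212, lane IND-S (helper27): gluings of graded modules along ends exist (`Ix82.DGlu`)
-/

set_option autoImplicit false
set_option linter.unusedSectionVars false
noncomputable section
open scoped Manifold ContDiff Topology InnerProductSpace
open Set Function Filter TopologicalSpace

namespace Crest.Agent.X212.Glu27
open An Ix82
open M (Mf pm)

variable {κ U : Type} [Fintype κ] [NormedAddCommGroup U] [InnerProductSpace ℝ U] [FiniteDimensional ℝ U]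
  {M M₁ M₂ : DM κ U}

theorem pm_pm (s : Bool) (t : ℝ) : pm s * (pm s * t) = t := by cases s <;> simp [pm]

theorem pm_nt (s : Bool) (t : ℝ) : pm (!s) * (t - 4 * pm s) = 4 - pm s * t := by cases s <;> simp [pm] <;> ring

section one
variable {e : DE κ U} {s : Bool} (k : En e s M) {x : M.X.M}

theorem mem_tgt : x ∈ k.ψ.target ↔ 0 < pm s * k.tm x := by rw [k.tgt]; rfl

theorem mem_src {y t} (h : 0 < pm s * t) : (y, t) ∈ k.ψ.source := by rw [k.src]; exact h

theorem tm_symm (h : x ∈ k.ψ.target) : (k.ψ.symm x).2 = k.tm x :=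
  (k.tm_ψ _ (k.ψ.map_target h)).symm.trans (congrArg _ (k.ψ.right_inv h))

/-- an end of a piece is an end of the union -/
theorem push (k : En e s M₁) {l : OpenPartialHomeomorph M₁.X.M M.X.M} (L : M₁.Lit M l) (v : M.F.IsVol)
    (ve : e.OK) (sub : k.ψ.target ⊆ l.source) {W : Set M.X.M} (oW : IsOpen W) (cov : l.target ∪ W = univ)
    (dj : ∀ x ∈ k.ψ.target, l x ∉ W) : ∃ k' : En e s M, (∀ x, k'.ψ x = l (k.ψ x)) ∧
      k'.ψ.target = l '' k.ψ.target ∧ ∀ x ∈ l.source, pm s * k.tm x ≤ pm s * k'.tm (l x) := by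
  let g : M.X.M → ℝ := l.target.indicator fun z => max (pm s * k.tm (l.symm z)) 0
  have g1 : ∀ x ∈ l.source, g (l x) = max (pm s * k.tm x) 0 := fun x a =>
    (indicator_of_mem (l.map_source a) _).trans (by rw [l.left_inv a])
  have sr : (k.ψ.trans l).source = k.ψ.source := inter_eq_left.2 fun x a => sub (k.ψ.map_source a)
  have tg : (k.ψ.trans l).target = l '' k.ψ.target :=
    (l.symm.symm_image_eq_source_inter_preimage sub).symm
  have g2 : ∀ z, 0 < g z ↔ z ∈ l '' k.ψ.target := fun z => ⟨fun a => by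
    have b : z ∈ l.target := by_contra fun b => a.ne' (indicator_of_notMem b _)
    rw [← l.right_inv b, g1 _ (l.map_target b), lt_max_iff, lt_self_iff_false, or_false] at a
    exact ⟨_, (mem_tgt k).2 a, l.right_inv b⟩, by
      rintro ⟨x, a, rfl⟩
      exact g1 x (sub a) ▸ lt_max_of_lt_left ((mem_tgt k).1 a)⟩
  have cg : Continuous g := continuous_iff_continuousAt.2 fun z => (cov.ge (mem_univ z)).elim
    (fun a => ContinuousAt.congr (f := fun z => max (pm s * k.tm (l.symm z)) 0) ((continuousAt_const.mul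
      (k.cont.continuousAt.comp (l.continuousAt_symm a))).max continuousAt_const)
      ((l.open_target.eventually_mem a).mono fun y b => (indicator_of_mem b _ : g y = _).symm))
    fun a => (continuousAt_const (y := (0 : ℝ))).congr ((oW.eventually_mem a).mono fun y b =>
      (indicator_nonneg (fun _ _ => le_max_right _ _) y).antisymm (not_lt.1 fun c =>
        let ⟨x, p, q⟩ := (g2 y).1 c; dj x p (q ▸ b)))
  refine ⟨⟨k.ψ.trans l, fun z => pm s * g z, sr.trans k.src, tg.trans (Set.ext fun z => ?_), continuous_const.mul cg,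
    fun x a => ?_, Rel.lit (sr ▸ (lit_rel k.lit).trans (lit_rel L) fun x a => sub (k.ψ.map_source a))
      ve.loc.ok.isv v⟩, fun _ => rfl, tg, fun x a => ?_⟩
  · rw [mem_ofPred_eq, pm_pm, g2]
  · have b := k.ψ.map_source (sr ▸ a)
    change pm s * g (l (k.ψ x)) = _
    rw [g1 _ (sub b), max_eq_left ((mem_tgt k).1 b).le, pm_pm, k.tm_ψ x (sr ▸ a)]
  · change _ ≤ pm s * (pm s * g _)
    rw [pm_pm, g1 x a]
    exact le_max_left _ _

end one

variable {J : Type} [Fintype J] {e : J → DE κ U} {s : J → Bool}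

section ht
variable (k : ∀ j, En (e j) (s j) M) {x : M.X.M} {j : J}

/-- the height on a family of ends -/
def hh (x : M.X.M) : ℝ := ∑ j, max (pm (s j) * (k j).tm x) 0

/-- disjoint ends -/
abbrev Dj : Prop := Pairwise fun i j => Disjoint (k i).ψ.target (k j).ψ.target

theorem hh_cont : Continuous (hh k) :=
  continuous_finsetSum _ fun j _ => (continuous_const.mul (k j).cont).max continuous_const

theorem le_hh (j x) : pm (s j) * (k j).tm x ≤ hh k x := (le_max_left _ _).trans (Finset.single_le_sum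
  (f := fun j => max (pm (s j) * (k j).tm x) 0) (fun _ _ => le_max_right _ _) (Finset.mem_univ j))

theorem hh_pos (h : 0 < hh k x) : ∃ j, x ∈ (k j).ψ.target := by_contra fun c => h.ne' (Finset.sum_eq_zero
  fun j _ => max_eq_right (not_lt.1 fun a => c ⟨j, (mem_tgt _).2 a⟩))

variable {k} (dj : Dj k)
include dj

theorem Dj.eq {i : J} (h : x ∈ (k i).ψ.target) (h' : x ∈ (k j).ψ.target) : i = j :=
  by_contra fun c => disjoint_left.1 (dj c) h h'

theorem hh_eq (h : x ∈ (k j).ψ.target) : hh k x = pm (s j) * (k j).tm x :=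
  (Finset.sum_eq_single j (fun _ _ c => max_eq_right (not_lt.1 fun a => c (dj.eq ((mem_tgt _).2 a) h)))
    (by simp)).trans (max_eq_left ((mem_tgt _).1 h).le)

theorem hh_psi {y t} (h : 0 < pm (s j) * t) : hh k ((k j).ψ (y, t)) = pm (s j) * t := by
  rw [hh_eq dj ((k j).ψ.map_source (mem_src _ h)), (k j).tm_ψ _ (mem_src _ h)]

theorem hh_par (h : 0 < hh k x) : ∃ j y t, hh k x = pm (s j) * t ∧ (k j).ψ (y, t) = x :=
  let ⟨j, a⟩ := hh_pos k h
  ⟨j, ((k j).ψ.symm x).1, ((k j).ψ.symm x).2, by rw [hh_eq dj a, tm_symm _ a], (k j).ψ.right_inv a⟩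

theorem hh_lt : {x | hh k x < 4} = {x | ∀ j, pm (s j) * (k j).tm x < 4} :=
  Subset.antisymm (fun x a j => (le_hh k j x).trans_lt a) fun x a => (le_or_gt (hh k x) 0).elim
    (fun b => b.trans_lt four_pos) fun b => let ⟨j, c⟩ := hh_pos k b; (hh_eq dj c).trans_lt (a j)

theorem pre_hh [ConnectedSpace M.X.M] : IsPreconnected {x | hh k x < 4} := by
  classical
  refine isPreconnected_of_forall_constant fun f hf => ?_
  let a : ∀ j, (e j).Y.M × ℝ → M.X.M := fun j q => (k j).ψ (q.1, pm (s j) * q.2)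
  have a1 : ∀ j q, q.2 ∈ Ioo (0 : ℝ) 4 → 0 < pm (s j) * (pm (s j) * (q : (e j).Y.M × ℝ).2) := fun j q c => by
    rw [pm_pm]; exact c.1
  have a2 : ∀ j, IsPreconnected (a j '' univ ×ˢ Ioo 0 4) := fun j =>
    (isPreconnected_univ.prod isPreconnected_Ioo).image _ ((k j).ψ.continuousOn.comp (by fun_prop)
      fun q c => mem_src _ (a1 j q c.2))
  have a3 : ∀ j, a j '' univ ×ˢ Ioo 0 4 ⊆ {x | hh k x < 4} := by
    rintro j _ ⟨q, c, rfl⟩
    exact (hh_psi dj (a1 j q c.2)).trans_lt (by rw [pm_pm]; exact c.2.2)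
  let c : J → Bool := fun j => f (a j (Classical.arbitrary _, 2))
  let g : M.X.M → Bool := fun x => if h : ∃ j, x ∈ (k j).ψ.target then c h.choose else f x
  have g1 : ∀ j, ∀ x ∈ (k j).ψ.target, g x = c j := fun j x b =>
    have h : ∃ j, x ∈ (k j).ψ.target := ⟨j, b⟩
    (dif_pos h).trans (congrArg c (dj.eq h.choose_spec b))
  have g2 : ∀ x ∈ {x | hh k x < 4}, g x = f x := fun x b => by
    by_cases h : ∃ j, x ∈ (k j).ψ.target
    · obtain ⟨j, h⟩ := h
      refine (g1 j x h).trans ((a2 j).constant (hf.mono (a3 j)) ⟨_, ⟨trivial, by norm_num⟩, rfl⟩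
        ⟨(((k j).ψ.symm x).1, hh k x), ⟨trivial, hh_eq dj h ▸ (mem_tgt _).1 h, b⟩, ?_⟩)
      simp only [a, hh_eq dj h, pm_pm, ← tm_symm _ h]
      exact (k j).ψ.right_inv h
    · exact dif_neg h
  have o := isOpen_lt (hh_cont k) (continuous_const (y := (4 : ℝ)))
  have cg : Continuous g := continuous_iff_continuousAt.2 fun x => (lt_or_ge (hh k x) 4).elim
    (fun b => (hf.continuousAt (o.mem_nhds b)).congr ((o.eventually_mem b).mono fun y d => (g2 y d).symm))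
    fun b => let ⟨j, h⟩ := hh_pos k (four_pos.trans_le b)
      continuousAt_const.congr (((k j).ψ.open_target.eventually_mem h).mono fun y d => (g1 j y d).symm)
  exact fun x p y q => (g2 x p).symm.trans ((isPreconnected_univ.constant cg.continuousOn trivial trivial).trans
    (g2 y q))

end ht

/-- the transition map -/
theorem exists_th [Nonempty M₂.X.M] {k : ∀ j, En (e j) (s j) M₁} {k' : ∀ j, En (e j) (!s j) M₂} (dj : Dj k)
    (dj' : Dj k') : ∃ θ : M₁.X.M → M₂.X.M,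
      (∀ j y t, 0 < pm (s j) * t → θ ((k j).ψ (y, t)) = (k' j).ψ (y, t - 4 * pm (s j))) ∧
      Rel M₁ M₂ θ (hh k ⁻¹' Ioo 0 4) ∧ BijOn θ (hh k ⁻¹' Ioo 0 4) (hh k' ⁻¹' Ioo 0 4) ∧
      ∀ x, hh k x ∈ Ioo (0 : ℝ) 4 → hh k' (θ x) = 4 - hh k x := by
  classical
  let f : J → M₁.X.M → M₂.X.M := fun j =>
    (k' j).ψ ∘ (fun q => (q.1, q.2 + -(4 * pm (s j)))) ∘ (k j).ψ.symm
  let θ : M₁.X.M → M₂.X.M := fun x => if h : ∃ j, x ∈ (k j).ψ.target then f h.choose x else Classical.arbitrary _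
  have t1 : ∀ j, ∀ x ∈ (k j).ψ.target, θ x = f j x := fun j x b =>
    have h : ∃ j, x ∈ (k j).ψ.target := ⟨j, b⟩
    (dif_pos h).trans (congrArg (f · x) (dj.eq h.choose_spec b))
  have t2 : ∀ j y t, 0 < pm (s j) * t → θ ((k j).ψ (y, t)) = (k' j).ψ (y, t - 4 * pm (s j)) := fun j y t b => by
    rw [t1 j _ ((k j).ψ.map_source (mem_src _ b))]
    simp only [f, comp_apply, (k j).ψ.left_inv (mem_src _ b), sub_eq_add_neg]
  have p : ∀ {j} {t : ℝ}, pm (s j) * t < 4 → 0 < pm (!s j) * (t - 4 * pm (s j)) := fun b => by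
    rw [pm_nt]; linarith
  have t3 : ∀ x, hh k x ∈ Ioo (0 : ℝ) 4 → hh k' (θ x) = 4 - hh k x := fun x b => by
    obtain ⟨j, y, t, c, rfl⟩ := hh_par dj b.1
    rw [c] at b
    rw [t2 j y t b.1, hh_psi dj' (p b.2), pm_nt, c]
  have o := isOpen_Ioo (a := (0 : ℝ)) (b := 4).preimage (hh_cont k)
  refine ⟨θ, t2, rel_of_loc o fun x b => ?_, ⟨fun x b => ?_, fun x b x' b' c => ?_, fun z b => ?_⟩, t3⟩
  · obtain ⟨j, c⟩ := hh_pos k b.1
    refine ⟨_, mem_inter c b, ((((lit_rel (lit_symm (k j).lit)).mono ((k j).ψ.open_target.inter o) inter_subset_left).trans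
      (rel_tau (e j) (-(4 * pm (s j)))) (mapsTo_univ _ _)).trans (lit_rel (k' j).lit) fun y d => mem_src _ (p ?_)).congr
        fun y d => t1 j y d.1⟩
    rw [tm_symm _ d.1, ← hh_eq dj d.1]
    exact d.2.2
  · rw [mem_preimage, t3 x b]
    exact ⟨by linarith [b.2], by linarith [b.1]⟩
  · obtain ⟨j, y, t, d, rfl⟩ := hh_par dj b.1
    obtain ⟨j', y', t', d', rfl⟩ := hh_par dj b'.1
    rw [mem_preimage, d] at b
    rw [mem_preimage, d'] at b'
    rw [t2 j y t b.1, t2 j' y' t' b'.1] at c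
    obtain rfl := dj'.eq ((k' j).ψ.map_source (mem_src _ (p b.2))) (c ▸ (k' j').ψ.map_source (mem_src _ (p b'.2)))
    obtain ⟨rfl, c'⟩ := Prod.mk.inj ((k' j).ψ.injOn (mem_src _ (p b.2)) (mem_src _ (p b'.2)) c)
    rw [sub_left_injective c']
  · obtain ⟨j, y, t, d, rfl⟩ := hh_par dj' b.1
    rw [mem_preimage, d, ← add_sub_cancel_right t (4 * pm (s j)), pm_nt] at b
    have c : 0 < pm (s j) * (t + 4 * pm (s j)) := by linarith [b.2]
    exact ⟨(k j).ψ (y, _), by rw [mem_preimage, hh_psi dj c]; exact ⟨c, by linarith [b.1]⟩, by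
      rw [t2 j y _ c, add_sub_cancel_right]⟩

variable {N : Type} {e' : N → DE κ U} {s' : N → Bool} {k : ∀ j, En (e j) (s j) M₁} {r : ∀ i, En (e' i) (s' i) M₁}

theorem cl_le (k : N → EnS M) (T : ℝ) : IsClosed {x | ∀ i, pm (k i).2.1 * (k i).2.2.tm x ≤ T} :=
  setOf_forall _ ▸ isClosed_iInter fun i => isClosed_le (continuous_const.mul (k i).2.2.cont) continuous_const

theorem ok_dj (h : M₁.OK (Sum.elim (bd k) (bd r))) : Dj k := fun _ _ c => h.dj (Sum.inl_injective.ne c)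

theorem ok_hh (h : M₁.OK (Sum.elim (bd k) (bd r))) {i x} (a : x ∈ (r i).ψ.target) : hh k x ≤ 0 := not_lt.1 fun b =>
  let ⟨j, c⟩ := hh_pos k b; disjoint_left.1 (h.dj (Sum.inl_ne_inr (a := j) (b := i))) c a

theorem ok_cpt (h : M₁.OK (Sum.elim (bd k) (bd r))) (T : ℝ) :
    IsCompact {x | hh k x ≤ 2 ∧ ∀ i, pm (s' i) * (r i).tm x ≤ T} :=
  (h.cpt (max T 2)).of_isClosed_subset ((isClosed_le (hh_cont k) continuous_const).inter (cl_le (bd r) T))
    fun x a => Sum.forall.2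
    ⟨fun j => le_max_of_le_right ((le_hh k j x).trans a.1), fun i => le_max_of_le_left (a.2 i)⟩

theorem ok_push (h : M₁.OK (Sum.elim (bd k) (bd r))) {l : OpenPartialHomeomorph M₁.X.M M.X.M} (L : M₁.Lit M l)
    (v : M.F.IsVol) (sr : l.source = {x | hh k x < 4}) {W : Set M.X.M} (oW : IsOpen W) (cov : l.target ∪ W = univ)
    (dj : ∀ x ∈ l.source, l x ∈ W → 0 < hh k x) : ∃ r' : ∀ i, En (e' i) (s' i) M, Kp r r' l ∧
      (Pairwise fun i j => Disjoint (r' i).ψ.target (r' j).ψ.target) ∧ (∀ i, (r' i).ψ.target ⊆ l.target \ W) ∧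
      ∀ i, ∀ x ∈ l.source, pm (s' i) * (r i).tm x ≤ pm (s' i) * (r' i).tm (l x) := by
  have sub : ∀ i, (r i).ψ.target ⊆ l.source := fun i x a => sr ▸ (ok_hh h a).trans_lt four_pos
  have nw : ∀ i, ∀ x ∈ (r i).ψ.target, l x ∉ W := fun i x a b => (dj x (sub i a) b).not_ge (ok_hh h a)
  choose r' a b c using fun i => push (r i) L v (h.en (.inr i)) (sub i) oW cov (nw i)
  refine ⟨r', fun i x _ => a i x, fun i j n => ?_, fun i => ?_, c⟩
  · change Disjoint _ _
    rw [b, b]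
    exact disjoint_image_image fun x p y q t => disjoint_left.1 (h.dj (Sum.inr_injective.ne n)) p
      (l.injOn (sub j q) (sub i p) t.symm ▸ q)
  · rw [b]
    rintro _ ⟨x, p, rfl⟩
    exact ⟨l.map_source (sub i p), nw i x p⟩

variable (κ U) in
/-- **D-GLU** -/
theorem dGlu : DGlu κ U := fun M₁ M₂ J N₁ N₂ _ _ _ _ e s e₁ s₁ e₂ s₂ k₁ k₂ r₁ r₂ o₁ o₂ => by
  have := o₁.con
  have := o₂.con
  have d₁ := ok_dj o₁
  have d₂ := ok_dj o₂
  obtain ⟨θ, t1, R, bij, t2⟩ := exists_th d₁ d₂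
  have nk : ∀ j y t, pm (s j) * t ∈ Ioo (0 : ℝ) 4 → hh k₁ ((k₁ j).ψ (y, t)) ∈ Ioo (0 : ℝ) 4 := fun j y t a => by
    rwa [hh_psi d₁ a.1]
  obtain ⟨x₀, n₀⟩ : (hh k₁ ⁻¹' Ioo 0 4).Nonempty := ⟨_, nk (Classical.arbitrary _) (Classical.arbitrary _)
    (pm _ * 2) (by rw [pm_pm]; norm_num)⟩
  obtain ⟨X, l, r, sl, sr, cov, lr⟩ := exists_mf (hh_cont k₁) (hh_cont k₂) R.fr.ld bij t2 ⟨x₀, n₀⟩
  have ml : ∀ {x}, x ∈ l.source ↔ hh k₁ x < 4 := by rw [sl]; rfl
  have mr : ∀ {x}, x ∈ r.source ↔ hh k₂ x < 4 := by rw [sr]; rfl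
  have lr' : ∀ p ∈ l.source, ∀ q ∈ r.source, l p = r q → hh k₁ p ∈ Ioo (0 : ℝ) 4 ∧ θ p = q :=
    fun p a q b => (lr p q (ml.1 a) (mr.1 b)).1
  have lt : ∀ p, hh k₁ p ∈ Ioo (0 : ℝ) 4 → l p = r (θ p) := fun p a => (lr p _ a.2 (bij.mapsTo a).2).2 ⟨a, rfl⟩
  obtain ⟨F, d, L, L₁, L₂⟩ := exists_geo o₁.loc o₂.loc l r cov R lr'
  obtain ⟨r₁', a₁, b₁, c₁, f₁⟩ := ok_push o₁ L₁ L.ok.isv sl r.open_target cov fun x a b =>
    (lr' x a _ (r.map_target b) (r.right_inv b).symm).1.1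
  obtain ⟨r₂', a₂, b₂, c₂, f₂⟩ := ok_push o₂ L₂ L.ok.isv sr l.open_target ((union_comm _ _).trans cov) fun x a b =>
    let ⟨p, q⟩ := lr' _ (l.map_target b) x a (l.right_inv b); q ▸ (bij.mapsTo p).1
  have two : ∀ z, (∃ x, hh k₁ x ≤ 2 ∧ l x = z) ∨ ∃ x, hh k₂ x ≤ 2 ∧ r x = z := fun z => by
    rcases cov.ge (mem_univ z) with a | a
    · refine (le_or_gt (hh k₁ (l.symm z)) 2).elim (fun b => .inl ⟨_, b, l.right_inv a⟩) fun b => .inr ?_
      have c : hh k₁ (l.symm z) ∈ Ioo (0 : ℝ) 4 := ⟨by linarith, ml.1 (l.map_target a)⟩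
      exact ⟨_, by rw [t2 _ c]; linarith, (lt _ c).symm.trans (l.right_inv a)⟩
    · refine (le_or_gt (hh k₂ (r.symm z)) 2).elim (fun b => .inr ⟨_, b, r.right_inv a⟩) fun b => .inl ?_
      obtain ⟨x, c, g⟩ := bij.surjOn (⟨by linarith, mr.1 (r.map_target a)⟩ : r.symm z ∈ hh k₂ ⁻¹' Ioo 0 4)
      exact ⟨x, by linarith [t2 x c, congrArg (hh k₂) g], (lt x c).trans ((congrArg r g).trans (r.right_inv a))⟩
  refine ⟨⟨X, F, d⟩, r₁', r₂', l.toOpenPartialHomeomorph, r.toOpenPartialHomeomorph, o₁, o₂, ⟨L, ?_,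
    Sum.forall.2 ⟨fun i => o₁.en (.inr i), fun i => o₂.en (.inr i)⟩, ?_, fun T => ?_⟩, ⟨L₁, L₂, sl.trans (hh_lt d₁),
      sr.trans (hh_lt d₂), fun j y t a => (lt _ (nk j y t a)).trans (congrArg r (t1 j y t a.1)), cov,
      Subset.antisymm (fun z a => ?_) (iUnion_subset fun j => ?_)⟩, a₁, a₂⟩
  · have p₁ := (sl ▸ pre_hh d₁ :).image _ l.contMDiffOn_toFun.continuousOn
    have p₂ := (sr ▸ pre_hh d₂ :).image _ r.contMDiffOn_toFun.continuousOn
    rw [l.image_source_eq_target] at p₁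
    rw [r.image_source_eq_target] at p₂
    exact connectedSpace_iff_univ.2 ⟨⟨l x₀, trivial⟩, cov ▸ p₁.union (l x₀) (l.map_source (ml.2 n₀.2))
      (lt x₀ n₀ ▸ r.map_source (mr.2 (bij.mapsTo n₀).2)) p₂⟩
  · rintro (i | i) (j | j) n
    exacts [b₁ (mt (congrArg _) n), disjoint_left.2 fun z a b => (c₁ i a).2 (c₂ j b).1,
      disjoint_left.2 fun z a b => (c₂ i a).2 (c₁ j b).1, b₂ (mt (congrArg _) n)]
  · refine (((ok_cpt o₁ T).image_of_continuousOn (l.contMDiffOn_toFun.continuousOn.mono fun x a =>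
      ml.2 (by linarith [a.1]))).union ((ok_cpt o₂ T).image_of_continuousOn
      (r.contMDiffOn_toFun.continuousOn.mono fun x a => mr.2 (by linarith [a.1])))).of_isClosed_subset
        (cl_le (Sum.elim (bd r₁') (bd r₂')) T) fun z a => ?_
    rcases two z with ⟨x, b, rfl⟩ | ⟨x, b, rfl⟩
    exacts [.inl ⟨x, ⟨b, fun i => (f₁ i x (ml.2 (by linarith))).trans (a (.inl i))⟩, rfl⟩,
      .inr ⟨x, ⟨b, fun i => (f₂ i x (mr.2 (by linarith))).trans (a (.inr i))⟩, rfl⟩]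
  · have b := (lr' _ (l.map_target a.1) _ (r.map_target a.2) ((l.right_inv a.1).trans (r.right_inv a.2).symm)).1
    obtain ⟨j, y, t, c, g⟩ := hh_par d₁ b.1
    exact mem_iUnion.2 ⟨j, _, ⟨(y, t), (c ▸ b :), g⟩, l.right_inv a.1⟩
  · rintro _ ⟨_, ⟨q, a, rfl⟩, rfl⟩
    have b := nk j q.1 q.2 a
    exact ⟨l.map_source (ml.2 b.2), ((lt _ b).symm ▸ r.map_source (mr.2 (bij.mapsTo b).2) :)⟩

end Crest.Agent.X212.Glu27
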